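import Vale.Agent.P235.H732.Monitors

/-!
P235, 3-sums (helper320 #15753), Theorem N, step (3): thinning of the births in a rooted tree of
bags of any size, with adhesions `S t` of size at most `k`.  Abstract form: the canonical
contraction enters through `F`, `E`, `rho` and the births `f`.
-/

namespace Vale.Agent.P235.K5.H360

open Finset Vale.Agent.P235.H732

/-- Rooted nodes with adhesions `S t`; `F b p` (distance to `S b`), `E b p q` (spread of the
contracted distances to `S b`), `rho t` (contraction on `S t`), births `f b i`, `i ∈ I b`. -/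
structure Nodes (N V β : Type*) [LinearOrder N] (d : V → V → ℝ) (k m : ℕ) where
  par : N → Option N
  par_lt : ∀ {t s}, par t = some s → s < t
  S : N → Finset V
  cardS : ∀ t, (S t).card ≤ k
  F : N → V → ℝ
  E : N → V → V → ℝ
  rho : N → V → V → ℝ
  I : N → Finset β
  cardI : ∀ b, (I b).card ≤ m
  f : N → β → V → ℝ
  i0 : β
  i0_mem : ∀ b, i0 ∈ I b
  f_i0 : ∀ b p, f b i0 p = F b p
  d_nonneg : ∀ x y, 0 ≤ d x y
  dt : N → V → V → ℝ
  dt_nonneg : ∀ t p q, 0 ≤ dt t p q
  dt_mono : ∀ {t s}, par t = some s → ∀ p q, dt s p q ≤ dt t p q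
  F_nonneg : ∀ b p, 0 ≤ F b p
  F_lip : ∀ b p q, F b p ≤ d p q + F b q
  F_near : ∀ {u w t}, Anc par u w → par t = some w → ∀ p ∈ S t, ∃ a ∈ S u, d p a ≤ F u p
  F_sep : ∀ {r w t}, Anc par r w → r ≠ w → par t = some w → ∀ p ∈ S t,
    ∃ a ∈ S w, d p a + F r a ≤ F r p
  F_anti : ∀ {b b' w t}, Anc par b b' → Anc par b' w → par t = some w → ∀ p ∈ S t,
    F b' p ≤ F b p
  rho_root : ∀ {t}, par t = none → ∀ p ∈ S t, ∀ q ∈ S t, rho t p q ≤ 0
  rho_par : ∀ {w t}, par t = some w → ∀ p ∈ S t, ∀ q ∈ S t, rho t p q = E w p q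
  E_symm : ∀ b p q, E b p q = E b q p
  E_mono : ∀ {b b' w t}, Anc par b b' → Anc par b' w → par t = some w →
    ∀ p ∈ S t, ∀ q ∈ S t, E b p q ≤ E b' p q
  E_lip : ∀ {v u w t}, par u = some v → Anc par u w → par t = some w →
    ∀ p ∈ S t, ∀ q ∈ S t, ∀ a ∈ S u, ∀ c ∈ S u, E v a c ≤ E v p q + d p a + d q c
  long : ∀ {u w t}, Anc par u w → par t = some w →
    ∀ p ∈ S t, ∀ q ∈ S t, ∀ a ∈ S u, ∀ c ∈ S u, rho t p q ≤ d p a + d q c + rho u a c
  f_lip : ∀ b, ∀ i ∈ I b, ∀ p q, |f b i p - f b i q| ≤ d p q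
  f_lipt : ∀ b, ∀ i ∈ I b, ∀ p q, |f b i p - f b i q| ≤ dt b p q
  f_zero : ∀ b, ∀ i ∈ I b, ∀ a ∈ S b, f b i a = 0
  cap : ∀ {b w t}, Anc par b w → par t = some w → ∀ p ∈ S t, ∀ q ∈ S t, ∀ h : ℝ, 0 < h →
    2 * h ≤ F b p → 3 * h ≤ E b p q → ∃ i ∈ I b, h ≤ |f b i p - f b i q|

namespace Nodes

variable {N V β : Type*} [LinearOrder N] {d : V → V → ℝ} {k m : ℕ} (D : Nodes N V β d k m)

/-- The unit `2^j / 15` of the scale `2^j`. -/
noncomputable def hh (j : ℤ) : ℝ := (2 : ℝ) ^ j / 15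

theorem hh_pos (j : ℤ) : 0 < hh j := by unfold hh; positivity

/-- Truncated distances. -/
noncomputable def T (j : ℤ) (b : N) (p : V) : ℝ := min (3 * hh j) (D.F b p)

/-- Active scales at `t`. -/
noncomputable def Sc (t : N) : Finset ℤ :=
  (D.S t ×ˢ D.S t).biUnion fun pq =>
    Finset.Icc (Int.log 2 (D.rho t pq.1 pq.2) - 2) (Int.log 2 (D.rho t pq.1 pq.2) + 1)

theorem card_Sc (t : N) : (D.Sc t).card ≤ 4 * k ^ 2 := by
  unfold Sc
  refine (Finset.card_biUnion_le_card_mul _ _ 4 ?_).trans ?_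
  · intro pq _
    rw [Int.card_Icc]
    omega
  · rw [Finset.card_product]
    have h := D.cardS t
    nlinarith [Nat.mul_le_mul h h]

theorem mem_Sc {t : N} {p q : V} (hp : p ∈ D.S t) (hq : q ∈ D.S t) {j : ℤ}
    (h1 : (2 : ℝ) ^ j / 2 ≤ D.rho t p q) (h2 : D.rho t p q ≤ 4 * 2 ^ j) : j ∈ D.Sc t := by
  unfold Sc
  rw [Finset.mem_biUnion]
  refine ⟨(p, q), Finset.mem_product.2 ⟨hp, hq⟩, ?_⟩
  have h0 : (0 : ℝ) < 2 ^ j := by positivity
  have hd : 0 < D.rho t p q := by linarith
  rw [Finset.mem_Icc]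
  constructor
  · have h3 : D.rho t p q < ((2 : ℕ) : ℝ) ^ (j + 3) := by
      rw [zpow_add₀ (by norm_num)]
      norm_num
      linarith
    have h4 := (Int.lt_zpow_iff_log_lt (by norm_num) hd).1 h3
    simp only
    omega
  · have h3 : ((2 : ℕ) : ℝ) ^ (j - 1) ≤ D.rho t p q := by
      rw [zpow_sub₀ (by norm_num)]
      norm_num
      linarith
    have h4 := (Int.zpow_le_iff_le_log (by norm_num) hd).1 h3
    simp only
    omega

section Mono

variable {D}

theorem T_nonneg (j : ℤ) (b : N) (p : V) : 0 ≤ D.T j b p :=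
  le_min (by have := hh_pos j; linarith) (D.F_nonneg b p)

theorem T_le (j : ℤ) (b : N) (p : V) : D.T j b p ≤ 3 * hh j := min_le_left _ _

theorem T_anti (j : ℤ) {b b' w t : N} (h1 : Anc D.par b b') (h2 : Anc D.par b' w)
    (h3 : D.par t = some w) {p : V} (hp : p ∈ D.S t) : D.T j b' p ≤ D.T j b p :=
  min_le_min le_rfl (D.F_anti h1 h2 h3 p hp)

theorem T_ext (j : ℤ) {l r w t : N} {h : ℝ} (hh0 : 0 ≤ h)
    (hr : Anc D.par r w) (hne : r ≠ w) (hw : D.par t = some w)
    (hA : ∀ a ∈ D.S w, D.T j l a - D.T j r a ≤ h) {p : V} (hp : p ∈ D.S t) :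
    D.T j l p - D.T j r p ≤ h := by
  rcases le_total (3 * hh j) (D.F r p) with h1 | h1
  · have h2 : D.T j r p = 3 * hh j := min_eq_left h1
    have := T_le (D := D) j l p
    linarith
  · have h2 : D.T j r p = D.F r p := min_eq_right h1
    obtain ⟨a, ha, h3⟩ := D.F_sep hr hne hw p hp
    have h4 := hA a ha
    have h5 := D.d_nonneg p a
    have h6 : D.T j r a ≤ D.F r a := min_le_right _ _
    have h7 : D.T j l p ≤ d p a + D.T j l a := by
      rcases le_total (3 * hh j) (D.F l a) with h8 | h8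
      · have h9 : D.T j l a = 3 * hh j := min_eq_left h8
        have := T_le (D := D) j l p
        linarith
      · have h9 : D.T j l a = D.F l a := min_eq_right h8
        have h10 : D.T j l p ≤ D.F l p := min_le_right _ _
        have := D.F_lip l p a
        linarith
    linarith

end Mono

variable [WellFoundedLT N]

open Classical in
/-- Alive births of scale `j` at the node `t` (proper ancestors of `t`). -/
noncomputable def alive : N → ℤ → Finset N :=
  WellFounded.fix (wellFounded_lt : WellFounded ((· < ·) : N → N → Prop)) fun t rec j =>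
    match h : D.par t with
    | none => ∅
    | some s =>
      if j ∈ D.Sc t then
        Bags.thinSel (D.T j) (hh j) (D.S t) k (insert s (rec s (D.par_lt h) j))
      else ∅

theorem alive_root {t : N} (j : ℤ) (hp : D.par t = none) : D.alive t j = ∅ := by
  rw [alive, WellFounded.fix_eq]
  split
  · rfl
  · simp_all

theorem alive_of_notMem {t : N} {j : ℤ} (h : j ∉ D.Sc t) : D.alive t j = ∅ := by
  rw [alive, WellFounded.fix_eq]
  split
  · rfl
  · rw [if_neg h]

open Classical in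
theorem alive_step {t s : N} {j : ℤ} (h : j ∈ D.Sc t) (hp : D.par t = some s) :
    D.alive t j = Bags.thinSel (D.T j) (hh j) (D.S t) k (insert s (D.alive s j)) := by
  rw [alive, WellFounded.fix_eq]
  split
  · simp_all
  · next s' hs' =>
    rw [hp] at hs'
    cases hs'
    rw [if_pos h]

theorem alive_anc (t : N) (j : ℤ) : ∀ b ∈ D.alive t j, ∃ w, D.par t = some w ∧ Anc D.par b w := by
  classical
  induction' t using WellFoundedLT.induction with t ih
  intro b hb
  cases hp : D.par t with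
  | none => rw [D.alive_root j hp] at hb; simp at hb
  | some s =>
    by_cases hj : j ∈ D.Sc t
    · rw [D.alive_step hj hp] at hb
      have hb' := Bags.thinSel_sub hb
      rw [Finset.mem_insert] at hb'
      refine ⟨s, rfl, ?_⟩
      rcases hb' with hb' | hb'
      · subst hb'; exact Anc.refl
      · obtain ⟨w, hw, h⟩ := ih s (D.par_lt hp) b hb'
        exact Anc.step hw h
    · rw [D.alive_of_notMem hj] at hb
      simp at hb

theorem card_alive (t : N) (j : ℤ) : (D.alive t j).card ≤ 6 * k + 2 := by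
  classical
  cases hp : D.par t with
  | none => rw [D.alive_root j hp]; simp
  | some s =>
    by_cases hj : j ∈ D.Sc t
    · rw [D.alive_step hj hp]
      exact Bags.card_thinSel
    · rw [D.alive_of_notMem hj]; simp

/-- All nodes strictly below `x`, down to `t`, are active. -/
def Per (j : ℤ) (x t : N) : Prop :=
  ∀ u, Anc D.par x u → u ≠ x → Anc D.par u t → j ∈ D.Sc u

theorem inv (j : ℤ) (t : N) : ∀ x w, D.par t = some w → Anc D.par x w → D.Per j x t →
    Wit (D.T j) (hh j) (D.S t) (D.alive t j) x := by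
  classical
  induction' t using WellFoundedLT.induction with t ih
  intro x w hp hxw hx
  have hxt : x < t := (hxw.le D.par_lt).trans_lt (D.par_lt hp)
  have hj : j ∈ D.Sc t := hx t (Anc.step hp hxw) hxt.ne' Anc.refl
  rw [D.alive_step hj hp]
  have hanc : ∀ b ∈ insert w (D.alive w j), Anc D.par b w := by
    intro b hb
    rcases Finset.mem_insert.1 hb with hb | hb
    · subst hb; exact Anc.refl
    · obtain ⟨v, hv, h⟩ := D.alive_anc w j b hb
      exact Anc.step hv h
  have hT : ∀ b ∈ {b | Anc D.par b w}, ∀ b' ∈ {b | Anc D.par b w}, b ≤ b' →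
      ∀ a ∈ D.S t, D.T j b' a ≤ D.T j b a := by
    intro b hb b' hb' hbb a ha
    exact T_anti j (Anc.comparable D.par_lt hb hb' hbb) hb' hp ha
  have hsp := Bags.thinSel_spec (exists_thin (hh_pos j) (D.cardS t) (insert w (D.alive w j))
    (fun b hb b' hb' => hT b (hanc b hb) b' (hanc b' hb'))
    (fun b _ a _ => ⟨T_nonneg j b a, T_le j b a⟩))
  by_cases hxw' : x = w
  · subst hxw'
    exact hsp.2.2 x (Finset.mem_insert_self _ _)
  -- `x` is a proper ancestor of `w`
  obtain ⟨v, hv, hxv⟩ : ∃ v, D.par w = some v ∧ Anc D.par x v := by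
    cases hxw with
    | refl => exact absurd rfl hxw'
    | step h1 h2 => exact ⟨_, h1, h2⟩
  have hxs : D.Per j x w := fun u h1 h2 h3 => hx u h1 h2 (Anc.step hp h3)
  have h1 := ih w (D.par_lt hp) x v hv hxv hxs
  rcases h1 with h1 | ⟨l, hl, r, hr, h3, h4, h5⟩
  · exact hsp.2.2 x (Finset.mem_insert_of_mem h1)
  · have hl' := Finset.mem_insert_of_mem (a := l) (b := w) hl
    have hr' := Finset.mem_insert_of_mem (a := r) (b := w) hr
    obtain ⟨v', hv', hrv⟩ := D.alive_anc w j r hr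
    have hrw : r < w := (hrv.le D.par_lt).trans_lt (D.par_lt hv')
    exact Wit.comb hT (fun b hb => hanc b (hsp.1 hb)) (hanc l hl') (hanc r hr') h3 h4
      (fun a ha => T_ext j (hh_pos j).le (hanc r hr') hrw.ne hp h5 ha)
      (hsp.2.2 l hl') (hsp.2.2 r hr')

omit [WellFoundedLT N] in
/-- Walk up to a birth which is far from one of the two points. -/
theorem up [WellFoundedLT N] {j : ℤ} {t w : N} (hw : D.par t = some w) {p q : V}
    (hp : p ∈ D.S t) (hq : q ∈ D.S t) (h1 : 15 * hh j ≤ D.rho t p q)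
    (h2 : D.rho t p q ≤ 30 * hh j) (s : N) :
    Anc D.par s w → D.Per j s t → 3 * hh j ≤ D.E s p q →
    ∃ τ, (3 * hh j ≤ D.F τ p ∨ 3 * hh j ≤ D.F τ q) ∧ Anc D.par τ w ∧ D.Per j τ t ∧
      3 * hh j ≤ D.E τ p q := by
  induction' s using WellFoundedLT.induction with s ih
  intro hsw hper hE
  have hpos := hh_pos j
  by_cases hQ : 3 * hh j ≤ D.F s p ∨ 3 * hh j ≤ D.F s q
  · exact ⟨s, hQ, hsw, hper, hE⟩
  push Not at hQ
  obtain ⟨a, ha, hpa⟩ := D.F_near hsw hw p hp
  obtain ⟨c, hc, hqc⟩ := D.F_near hsw hw q hq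
  have h3 := D.long hsw hw p hp q hq a ha c hc
  have h4 : 9 * hh j ≤ D.rho s a c := by linarith [hQ.1, hQ.2]
  cases hv : D.par s with
  | none =>
    exfalso
    have := D.rho_root hv a ha c hc
    linarith
  | some v =>
    have h5 := D.rho_par hv a ha c hc
    have h6 := D.E_lip hv hsw hw p hp q hq a ha c hc
    have hvs : Anc D.par v s := Anc.step hv Anc.refl
    have hvw : Anc D.par v w := hvs.trans hsw
    have h7 : D.E v p q ≤ D.E w p q := D.E_mono hvw Anc.refl hw p hp q hq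
    have h8 := D.rho_par hw p hp q hq
    have h2j : (2 : ℝ) ^ j = 15 * hh j := by unfold hh; ring
    have hjs : j ∈ D.Sc s := by
      refine D.mem_Sc ha hc ?_ ?_
      · rw [h2j]; linarith
      · rw [h2j]; linarith [hQ.1, hQ.2]
    refine ih v (D.par_lt hv) hvw ?_ (by linarith [hQ.1, hQ.2])
    intro u hu1 hu2 hu3
    by_cases hus : u = s
    · rw [hus]; exact hjs
    · have hst : Anc D.par s t := Anc.step hw hsw
      rcases le_total u s with h9 | h9
      · exfalso
        have h10 := Anc.comparable D.par_lt hu3 hst h9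
        have h11 := h10.of_ne hus hv
        exact hu2 (le_antisymm (h11.le D.par_lt) (hu1.le D.par_lt))
      · exact hper u (Anc.comparable D.par_lt hst hu3 h9) hus hu3

theorem capture {t : N} {p q : V} (hp : p ∈ D.S t) (hq : q ∈ D.S t)
    (hpq : 0 < D.rho t p q) :
    ∃ j ∈ D.Sc t, ∃ b ∈ D.alive t j, ∃ i ∈ D.I b,
      D.rho t p q / 30 ≤ |D.f b i p - D.f b i q| := by
  set j : ℤ := Int.log 2 (D.rho t p q) with hj
  have h2j : (2 : ℝ) ^ j = 15 * hh j := by unfold hh; ring
  have h1 : (2 : ℝ) ^ j ≤ D.rho t p q := by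
    have := Int.zpow_log_le_self (b := 2) (by norm_num) hpq
    exact_mod_cast this
  have h2 : D.rho t p q < 2 * (2 : ℝ) ^ j := by
    have := Int.lt_zpow_succ_log_self (b := 2) (by norm_num) (D.rho t p q)
    rw [zpow_add₀ (by norm_num)] at this
    push_cast at this
    linarith
  have hpos := hh_pos j
  have hjS : j ∈ D.Sc t := D.mem_Sc hp hq (by linarith) (by linarith)
  rw [h2j] at h1 h2
  cases hw : D.par t with
  | none =>
    exfalso
    have := D.rho_root hw p hp q hq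
    linarith
  | some w =>
    have hE := D.rho_par hw p hp q hq
    have hper : D.Per j w t := by
      intro u hu1 hu2 hu3
      by_cases hut : u = t
      · rw [hut]; exact hjS
      · exfalso
        have h3 := hu3.of_ne hut hw
        exact hu2 (le_antisymm (h3.le D.par_lt) (hu1.le D.par_lt))
    obtain ⟨τ, hτ, hτw, hτt, hEτ⟩ := D.up hw hp hq h1 (by linarith) w Anc.refl hper
      (by rw [← hE]; linarith)
    -- a birth `b` with `2h ≤ F b p` or `2h ≤ F b q`
    have key : ∀ p' q' : V, p' ∈ D.S t → q' ∈ D.S t → 3 * hh j ≤ D.F τ p' →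
        3 * hh j ≤ D.E τ p' q' →
        ∃ b ∈ D.alive t j, ∃ i ∈ D.I b, hh j ≤ |D.f b i p' - D.f b i q'| := by
      intro p' q' hp' hq' hF hE'
      rcases D.inv j t τ w hw hτw hτt with h3 | ⟨l, hl, r, hr, h3, h4, h5⟩
      · obtain ⟨i, hi, h⟩ := D.cap hτw hw p' hp' q' hq' (hh j) hpos (by linarith) hE'
        exact ⟨τ, h3, i, hi, h⟩
      · obtain ⟨w1, hw1, hlw⟩ := D.alive_anc t j l hl
        obtain ⟨w2, hw2, hrw⟩ := D.alive_anc t j r hr
        rw [hw] at hw1 hw2
        cases hw1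
        cases hw2
        have hlτ : Anc D.par l τ := Anc.comparable D.par_lt hlw hτw h3.le
        have hτr : Anc D.par τ r := Anc.comparable D.par_lt hτw hrw h4.le
        have h6 := h5 p' hp'
        have h7 : D.T j τ p' ≤ D.T j l p' := T_anti j hlτ hτw hw hp'
        have h8 : D.T j τ p' = 3 * hh j := min_eq_left hF
        have h9 : D.T j r p' ≤ D.F r p' := min_le_right _ _
        have h10 : D.E τ p' q' ≤ D.E r p' q' := D.E_mono hτr hrw hw p' hp' q' hq'
        obtain ⟨i, hi, h⟩ := D.cap hrw hw p' hp' q' hq' (hh j) hpos (by linarith) (by linarith)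
        exact ⟨r, hr, i, hi, h⟩
    refine ⟨j, hjS, ?_⟩
    rcases hτ with hτ | hτ
    · obtain ⟨b, hb, i, hi, h⟩ := key p q hp hq hτ hEτ
      exact ⟨b, hb, i, hi, by linarith⟩
    · obtain ⟨b, hb, i, hi, h⟩ := key q p hq hp hτ (by rw [D.E_symm]; exact hEτ)
      rw [abs_sub_comm] at h
      exact ⟨b, hb, i, hi, by linarith⟩

/-! ### The set form -/

open Classical in
/-- Monitors at `t`: all births of `t`, and the alive births. -/
noncomputable def J (t : N) : Finset (N × β) :=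
  ((D.I t).image fun i => (t, i)) ∪
    (D.Sc t).biUnion fun j => (D.alive t j).biUnion fun b => (D.I b).image fun i => (b, i)

theorem mem_J {t b : N} {i : β} :
    (b, i) ∈ D.J t ↔ (b = t ∧ i ∈ D.I t) ∨ ∃ j ∈ D.Sc t, b ∈ D.alive t j ∧ i ∈ D.I b := by
  classical
  unfold J
  simp only [Finset.mem_union, Finset.mem_biUnion, Finset.mem_image, Prod.mk.injEq]
  constructor
  · rintro (⟨i', h1, h2, rfl⟩ | ⟨j, h1, b', h2, i', h3, rfl, rfl⟩)
    · exact Or.inl ⟨h2.symm, h1⟩
    · exact Or.inr ⟨j, h1, h2, h3⟩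
  · rintro (⟨h1, h2⟩ | ⟨j, h1, h2, h3⟩)
    · exact Or.inl ⟨i, h2, h1.symm, rfl⟩
    · exact Or.inr ⟨j, h1, b, h2, i, h3, rfl, rfl⟩

/-- The bound for the number of monitors. -/
def LL (k m : ℕ) : ℕ := (1 + 4 * k ^ 2 * (6 * k + 2)) * m

theorem card_J (t : N) : (D.J t).card ≤ LL k m := by
  classical
  unfold J LL
  rw [add_mul, one_mul, mul_assoc]
  refine (Finset.card_union_le _ _).trans (Nat.add_le_add ?_ ?_)
  · exact Finset.card_image_le.trans (D.cardI t)
  · refine (Finset.card_biUnion_le_card_mul _ _ ((6 * k + 2) * m) ?_).trans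
      (Nat.mul_le_mul_right _ (D.card_Sc t))
    intro j _
    refine (Finset.card_biUnion_le_card_mul _ _ m ?_).trans
      (Nat.mul_le_mul_right _ (D.card_alive t j))
    intro b _
    exact Finset.card_image_le.trans (D.cardI b)

/-- A monitor which is new at `t` is born at `t`. -/
theorem J_new {t b : N} {i : β} (h : (b, i) ∈ D.J t)
    (hnew : ∀ s, D.par t = some s → (b, i) ∉ D.J s) : b = t := by
  classical
  rw [mem_J] at h
  rcases h with ⟨h, _⟩ | ⟨j, h1, h2, h3⟩
  · exact h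
  · exfalso
    cases hp : D.par t with
    | none =>
      rw [D.alive_root j hp] at h2
      simp at h2
    | some s =>
      apply hnew s hp
      rw [D.alive_step h1 hp] at h2
      have h4 := Bags.thinSel_sub h2
      rw [mem_J]
      rcases Finset.mem_insert.1 h4 with h5 | h5
      · subst h5; exact Or.inl ⟨rfl, h3⟩
      · right
        refine ⟨j, ?_, h5, h3⟩
        by_contra h6
        rw [D.alive_of_notMem h6] at h5
        simp at h5

omit [WellFoundedLT N] in
theorem dt_anc {b t : N} (h : Anc D.par b t) (p q : V) : D.dt b p q ≤ D.dt t p q := by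
  induction h with
  | refl => exact le_rfl
  | step h1 _ ih => exact ih.trans (D.dt_mono h1 p q)

theorem J_anc {t b : N} {i : β} (h : (b, i) ∈ D.J t) : Anc D.par b t ∧ i ∈ D.I b := by
  rw [mem_J] at h
  rcases h with ⟨rfl, h⟩ | ⟨j, h1, h2, h3⟩
  · exact ⟨Anc.refl, h⟩
  · obtain ⟨w, hw, h4⟩ := D.alive_anc t j b h2
    exact ⟨Anc.step hw h4, h3⟩

/-- **Monitors, set form.** -/
theorem monitors :
    (∀ t, (D.J t).card ≤ LL k m) ∧
    (∀ t, ∀ x ∈ D.J t, ∀ p q, |D.f x.1 x.2 p - D.f x.1 x.2 q| ≤ d p q) ∧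
    (∀ t, ∀ x ∈ D.J t, ∀ p q, |D.f x.1 x.2 p - D.f x.1 x.2 q| ≤ D.dt t p q) ∧
    (∀ t, ∀ x ∈ D.J t, (∀ s, D.par t = some s → x ∉ D.J s) → ∀ a ∈ D.S t, D.f x.1 x.2 a = 0) ∧
    (∀ t, ∀ p ∈ D.S t, ∀ q ∈ D.S t, 0 < D.rho t p q →
      ∃ x ∈ D.J t, D.rho t p q / 30 ≤ |D.f x.1 x.2 p - D.f x.1 x.2 q|) ∧
    (∀ t, ∀ z, ∀ s ∈ D.S t, d z s ≤ D.F t z → ∀ a ∈ D.S t, ∀ X : ℝ, 0 < X →
      X ≤ d z s + D.rho t s a → ∃ x ∈ D.J t, X / 62 ≤ |D.f x.1 x.2 z - D.f x.1 x.2 a|) := by
  refine ⟨D.card_J, fun t x hx p q => D.f_lip _ _ (D.J_anc hx).2 _ _,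
    fun t x hx p q => (D.f_lipt _ _ (D.J_anc hx).2 _ _).trans (D.dt_anc (D.J_anc hx).1 p q),
    ?_, ?_, ?_⟩
  · rintro t ⟨b, i⟩ hi hnew a ha
    have hb := D.J_new hi hnew
    have h2 := (D.J_anc hi).2
    subst hb
    exact D.f_zero _ _ h2 _ ha
  · intro t p hp q hq hpq
    obtain ⟨j, h1, b, h2, i, h3, h4⟩ := D.capture hp hq hpq
    exact ⟨(b, i), D.mem_J.2 (Or.inr ⟨j, h1, h2, h3⟩), h4⟩
  · intro t z s hs hzs a ha X hX hXle
    by_cases hF : X / 62 ≤ D.F t z
    · refine ⟨(t, D.i0), D.mem_J.2 (Or.inl ⟨rfl, D.i0_mem t⟩), ?_⟩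
      simp only
      have h1 := D.f_zero t D.i0 (D.i0_mem t) a ha
      rw [h1, sub_zero, D.f_i0]
      exact hF.trans (le_abs_self _)
    · push Not at hF
      have hrho : 61 / 62 * X ≤ D.rho t s a := by linarith
      obtain ⟨j, h1, b, h2, i, h3, h4⟩ := D.capture hs ha (by linarith)
      refine ⟨(b, i), D.mem_J.2 (Or.inr ⟨j, h1, h2, h3⟩), ?_⟩
      simp only
      have h5 := D.f_lip b i h3 z s
      have h6 : |D.f b i s - D.f b i a| ≤ |D.f b i z - D.f b i s| + |D.f b i z - D.f b i a| := by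
        have := abs_sub_le (D.f b i s) (D.f b i z) (D.f b i a)
        rw [abs_sub_comm (D.f b i s) (D.f b i z)] at this
        exact this
      linarith

/-- **Monitors, slot form.** -/
theorem slots :
    ∃ η : N → Fin (LL k m) → V → ℝ,
      (∀ t j p q, |η t j p - η t j q| ≤ d p q) ∧
      (∀ t j p q, |η t j p - η t j q| ≤ D.dt t p q) ∧
      (∀ t j, (∃ s, D.par t = some s ∧ η t j = η s j) ∨ ∀ a ∈ D.S t, η t j a = 0) ∧
      (∀ t, ∀ p ∈ D.S t, ∀ q ∈ D.S t, 0 < D.rho t p q →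
        ∃ j, D.rho t p q / 30 ≤ |η t j p - η t j q|) ∧
      (∀ t, ∀ z, ∀ s ∈ D.S t, d z s ≤ D.F t z → ∀ a ∈ D.S t, ∀ X : ℝ, 0 < X →
        X ≤ d z s + D.rho t s a → ∃ j, X / 62 ≤ |η t j z - η t j a|) := by
  classical
  obtain ⟨hJ, hlip, hlipt, hnew, hcap, hcapz⟩ := D.monitors
  rcases isEmpty_or_nonempty N with hN | ⟨⟨t0⟩⟩
  · exact ⟨fun _ _ _ => 0, fun t => isEmptyElim t, fun t => isEmptyElim t,
      fun t => isEmptyElim t, fun t => isEmptyElim t, fun t => isEmptyElim t⟩
  have hm : 0 < m := (Finset.card_pos.2 ⟨_, D.i0_mem t0⟩).trans_le (D.cardI t0)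
  have hL : 0 < LL k m := by unfold LL; positivity
  obtain ⟨σ, hinj, hσ⟩ := exists_slots (fun {t s} h => D.par_lt h) D.J hL hJ
  -- the content of the slot of a monitor
  have hval : ∀ t, ∀ x ∈ D.J t, ∀ p,
      (if H : ∃ x' ∈ D.J t, σ t x' = σ t x then D.f H.choose.1 H.choose.2 p else 0) =
        D.f x.1 x.2 p := by
    intro t x hx p
    have H : ∃ x' ∈ D.J t, σ t x' = σ t x := ⟨x, hx, rfl⟩
    have e : H.choose = x := hinj t H.choose_spec.1 hx H.choose_spec.2
    rw [dif_pos H, e]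
  refine ⟨fun t c p => if H : ∃ x ∈ D.J t, σ t x = c then D.f H.choose.1 H.choose.2 p else 0,
    ?_, ?_, ?_, ?_, ?_⟩
  · intro t c p q
    by_cases H : ∃ x ∈ D.J t, σ t x = c
    · simp only [dif_pos H]; exact hlip t _ H.choose_spec.1 _ _
    · simp only [dif_neg H]; rw [sub_zero, abs_zero]; exact D.d_nonneg _ _
  · intro t c p q
    by_cases H : ∃ x ∈ D.J t, σ t x = c
    · simp only [dif_pos H]; exact hlipt t _ H.choose_spec.1 _ _
    · simp only [dif_neg H]; rw [sub_zero, abs_zero]; exact D.dt_nonneg _ _ _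
  · intro t c
    by_cases H : ∃ x ∈ D.J t, σ t x = c
    · by_cases hs : ∃ s, D.par t = some s ∧ H.choose ∈ D.J s
      · obtain ⟨s, hs1, hs2⟩ := hs
        left
        refine ⟨s, hs1, ?_⟩
        have h3 : σ s H.choose = c := by
          rw [← hσ t s hs1 _ H.choose_spec.1 hs2]; exact H.choose_spec.2
        have H2 : ∃ x ∈ D.J s, σ s x = c := ⟨_, hs2, h3⟩
        have e2 : H2.choose = H.choose :=
          hinj s H2.choose_spec.1 hs2 (H2.choose_spec.2.trans h3.symm)
        funext p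
        simp only [dif_pos H, dif_pos H2]
        rw [e2]
      · right
        intro a ha
        simp only [dif_pos H]
        push Not at hs
        exact hnew t _ H.choose_spec.1 hs a ha
    · right
      intro a _
      simp only [dif_neg H]
  · intro t p hp q hq hpq
    obtain ⟨x, hx, h⟩ := hcap t p hp q hq hpq
    refine ⟨σ t x, ?_⟩
    simp only
    rw [hval t x hx p, hval t x hx q]
    exact h
  · intro t z s hs hzs a ha X hX hXle
    obtain ⟨x, hx, h⟩ := hcapz t z s hs hzs a ha X hX hXle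
    refine ⟨σ t x, ?_⟩
    simp only
    rw [hval t x hx z, hval t x hx a]
    exact h

end Nodes

end Vale.Agent.P235.K5.H360
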