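import Vale.Agent.P235.K5.H360.Mon
import Vale.Agent.P235.K5.H439.Proc

/-!
P235, 3-sums: the monitors of `K5.H360.Mon` fed into the process of `K5.H439.Proc`.
-/

namespace Vale.Agent.P235.K5.H360

open Finset Vale.Agent.P235.H732 Vale.Agent.P235.K5.H439

open Classical in
/-- **Monitors and process.** `κ` depends on `k`, `m`, `ε` only.  `Z t z a` is any set of triples
with `a ∈ S t` and `z` in the bag of `t`, `X t z a` any function below the contracted distance. -/
theorem exists_bproc_of_nodes (k m : ℕ) {ε : ℝ} (hε : 0 < ε) : ∃ κ : ℝ, 0 < κ ∧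
    ∀ (N V β : Type) (_ : LinearOrder N) (_ : WellFoundedLT N) (d : V → V → ℝ)
      (D : Nodes N V β d k m) (par : N → N) (rk : N → ℕ) (root : N → Prop)
      (Z : N → V → V → Prop) (X : N → V → V → ℝ),
      (∀ t, ¬ root t → D.par t = some (par t)) →
      (∀ t, ¬ root t → rk (par t) < rk t) →
      (∀ t z a, Z t z a → a ∈ D.S t ∧
        ∃ s ∈ D.S t, d z s ≤ D.F t z ∧ X t z a ≤ d z s + D.rho t s a) →
      Nonempty (BProc N V D.dt par root D.S
        (fun t z a => if Z t z a then X t z a / 62 else 0) κ ε) := by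
  obtain ⟨κ, hκ, h⟩ := exists_bproc k (Nodes.LL k m) hε
  refine ⟨κ, hκ, ?_⟩
  intro N V β _ _ d D par rk root Z X hpar hrk hZ
  obtain ⟨η, _, h2, h3, _, h5⟩ := D.slots
  refine h N V D.dt par rk root D.S η _ D.dt_nonneg ?_ hrk D.cardS h2 ?_ ?_
  · intro t ht p q
    exact D.dt_mono (hpar t ht) p q
  · intro t ht j
    rcases h3 t j with ⟨s, hs, h6⟩ | h6
    · rw [hpar t ht] at hs
      cases hs
      exact Or.inl h6
    · exact Or.inr h6
  · intro t z a hpos
    by_cases hz : Z t z a
    · simp only [if_pos hz] at hpos ⊢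
      obtain ⟨ha, s, hs, h7, h8⟩ := hZ t z a hz
      exact h5 t z s hs h7 a ha (X t z a) (by linarith) h8
    · simp only [if_neg hz] at hpos
      exact absurd hpos (lt_irrefl _)

end Vale.Agent.P235.K5.H360
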